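import Vale.Agent.P281.H540.Stmt

/-!
# P281: Campana's orbifold Iitaka inequality and hyperbolic manifolds

Let `X₀` be a compact connected Kähler manifold of dimension `n ≥ 1` which is Brody hyperbolic, or
has a Hermitian metric of nonpositive holomorphic sectional curvature with a further property.
1. If `Z` is a complex manifold of dimension `n` and `q : Z → X₀` a holomorphic map which is étale
   at some point (for instance `q = id`, a modification or a ramified covering), then
   `κ(Z, K_Z + L) = n` for every effective `ℚ`-divisor `L` on `Z`.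
2. If `f : X → Y` is a fibration between compact connected manifolds, `Δ` a rational SNC boundary on
   `X` and `X` has such a map to `X₀`, then Campana's inequality
   `κ(X, K_X + Δ) ≥ κ(F, K_F + Δ|_F) + κ(f | Δ)` holds.
-/

open scoped Manifold ContDiff ComplexOrder

namespace Vale.Agent.Results.P281.HyperbolicCase

open Vale.Agent.P272.K Vale.Agent.P281.H540

theorem result (n : ℕ) (hn : 1 ≤ n) (X₀ : Type) [TopologicalSpace X₀] [ChartedSpace (Cm n) X₀]
    (h : IsNegative n X₀) :
    (∀ (Z : Type) [TopologicalSpace Z] [ChartedSpace (Cm n) Z], IsComplexMfd n Z →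
      ∀ q : Z → X₀, IsGenEtale (Cm n) q → AllKodFull (Cm n) Z) ∧
    AllCampana (Cm n) X₀ := by
  have : IsManifold 𝓘(ℂ, Cm n) ω X₀ := h.holo
  have hjet := jets n hn X₀ h
  refine ⟨?_, campana hjet⟩
  intro Z _ _ hZ q hq ι eqn c hc
  have : IsManifold 𝓘(ℂ, Cm n) ω Z := hZ
  exact kod_full hjet q hq eqn c hc

end Vale.Agent.Results.P281.HyperbolicCase
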